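import Mathlib

/-!
Row 53 (S0074), part 2: the fine rule inside a class modulo the density zero ideal.
-/

set_option autoImplicit false

namespace Crest.Agent.R53

open Set Filter
open scoped Classical

variable {V : Type}

/-- number of elements in the block `k` -/
noncomputable def cnt (F : ℕ → Finset V) (Z : Set V) (k : ℕ) : ℕ := ((F k).filter (· ∈ Z)).card

/-- density zero -/
def Nul (F : ℕ → Finset V) (σ : ℕ → ℕ) (Z : Set V) : Prop :=
  ∀ n : ℕ, ∀ᶠ k in atTop, (n + 1) * cnt F Z k ≤ σ k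

/-- a partition into finite blocks -/
def Blocks (F : ℕ → Finset V) : Prop := ∀ v, ∃! k, v ∈ F k

/-- soft threshold -/
def ps (t d : ℤ) : ℤ := max (d - t) 0 + min (d + t) 0

/-- the threshold -/
def th (σ : ℕ → ℕ) (n k : ℕ) : ℕ := if k ≤ n then 0 else σ k / (n + 1)

/-- difference of counts -/
noncomputable def df (F : ℕ → Finset V) (c X : Set V) (k : ℕ) : ℤ := (cnt F X k : ℤ) - cnt F c k

/-- the potential -/
noncomputable def HH (F : ℕ → Finset V) (σ : ℕ → ℕ) (c X : Set V) (n : ℕ) : ℤ :=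
  ∑ᶠ k, ps (th σ n k) (df F c X k)

/-- same class -/
def Eqv (F : ℕ → Finset V) (σ : ℕ → ℕ) (c X : Set V) : Prop := Nul F σ (X \ c) ∧ Nul F σ (c \ X)

variable {F : ℕ → Finset V} {σ : ℕ → ℕ}

theorem cnt_mono {X Y : Set V} (h : X ⊆ Y) (k : ℕ) : cnt F X k ≤ cnt F Y k :=
  Finset.card_le_card fun v hv => by
    rw [Finset.mem_filter] at hv ⊢; exact ⟨hv.1, h hv.2⟩

theorem cnt_union_le (X Y : Set V) (k : ℕ) : cnt F (X ∪ Y) k ≤ cnt F X k + cnt F Y k :=
  le_trans (Finset.card_le_card fun v hv => by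
    simp only [Finset.mem_filter, Finset.mem_union, mem_union] at hv ⊢; tauto)
    (Finset.card_union_le _ _)

theorem cnt_union {X Y : Set V} (h : Disjoint X Y) (k : ℕ) :
    cnt F (X ∪ Y) k = cnt F X k + cnt F Y k := by
  rw [cnt, cnt, cnt, ← Finset.card_union_of_disjoint]
  · congr 1; ext v; simp only [Finset.mem_filter, Finset.mem_union, mem_union]; tauto
  · exact Finset.disjoint_left.2 fun v h1 h2 =>
      Set.disjoint_left.1 h (Finset.mem_filter.1 h1).2 (Finset.mem_filter.1 h2).2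

theorem cnt_congr {X Y : Set V} {k : ℕ} (h : ∀ v ∈ F k, v ∈ X ↔ v ∈ Y) : cnt F X k = cnt F Y k := by
  rw [cnt, cnt, Finset.filter_congr h]

theorem cnt_single (e : V) (k : ℕ) : cnt F {e} k = if e ∈ F k then 1 else 0 := by
  rw [cnt]
  split_ifs with h
  · exact Finset.card_eq_one.2 ⟨e, by ext v; simp; rintro rfl; exact h⟩
  · exact Finset.card_eq_zero.2 (Finset.filter_eq_empty_iff.2 fun v hv h' => h (h' ▸ hv))

theorem Nul.mono {X Y : Set V} (hY : Nul F σ Y) (h : X ⊆ Y) : Nul F σ X := fun n =>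
  (hY n).mono fun k hk => (Nat.mul_le_mul_left _ (cnt_mono h k)).trans hk

theorem Nul.union {X Y : Set V} (hX : Nul F σ X) (hY : Nul F σ Y) : Nul F σ (X ∪ Y) := fun n =>
  ((hX (2 * n + 1)).and (hY (2 * n + 1))).mono fun k hk => by
    have := Nat.mul_le_mul_left (n + 1) (cnt_union_le (F := F) X Y k)
    nlinarith [hk.1, hk.2]

theorem nul_empty : Nul F σ (∅ : Set V) := fun n => Eventually.of_forall fun k => by simp [cnt]

theorem nul_single (hF : Blocks F) (e : V) : Nul F σ {e} := fun n => by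
  obtain ⟨k₀, -, h⟩ := hF e
  filter_upwards [eventually_gt_atTop k₀] with k hk
  rw [cnt_single, if_neg fun he => hk.ne' (h k he)]
  simp

theorem Eqv.between {c I X W : Set V} (hI : Eqv F σ c I) (hX : Eqv F σ c X) (h1 : I ⊆ W)
    (h2 : W ⊆ X) : Eqv F σ c W :=
  ⟨hX.1.mono (sdiff_subset_sdiff_left h2), hI.2.mono (sdiff_subset_sdiff_right h1)⟩

theorem Eqv.union {c X Y : Set V} (hX : Eqv F σ c X) (hY : Nul F σ Y) : Eqv F σ c (X ∪ Y) :=
  ⟨(hX.1.union hY).mono fun v hv => by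
    simp only [Set.mem_sdiff, mem_union] at hv ⊢; tauto,
    hX.2.mono (sdiff_subset_sdiff_right subset_union_left)⟩

theorem Eqv.compl {c X : Set V} (hX : Eqv F σ c X) : Eqv F σ cᶜ Xᶜ :=
  ⟨hX.2.mono fun v hv => ⟨not_not.1 hv.2, hv.1⟩, hX.1.mono fun v hv => ⟨not_not.1 hv.2, hv.1⟩⟩

theorem Eqv.sdiff {c X Y : Set V} (hX : Eqv F σ c X) (hY : Nul F σ Y) : Eqv F σ c (X \ Y) :=
  ⟨hX.1.mono (sdiff_subset_sdiff_left sdiff_subset), (hX.2.union hY).mono fun v hv => by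
    simp only [Set.mem_sdiff, mem_union] at hv ⊢; tauto⟩

theorem small {D : Set V} (hD : Nul F σ D) (n : ℕ) : ∀ᶠ k in atTop, cnt F D k ≤ th σ n k := by
  filter_upwards [hD n, eventually_gt_atTop n] with k hk hk'
  rw [th, if_neg (by omega), Nat.le_div_iff_mul_le (by omega), mul_comm]
  exact hk

theorem df_le {c W D : Set V} (h1 : W \ c ⊆ D) (h2 : c \ W ⊆ D) (k : ℕ) :
    |df F c W k| ≤ cnt F D k := by
  have e1 : cnt F W k ≤ cnt F c k + cnt F D k :=
    (cnt_mono (fun v hv => by by_cases h : v ∈ c; exacts [Or.inl h, Or.inr (h1 ⟨hv, h⟩)]) k).trans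
      (cnt_union_le c D k)
  have e2 : cnt F c k ≤ cnt F W k + cnt F D k :=
    (cnt_mono (fun v hv => by by_cases h : v ∈ W; exacts [Or.inl h, Or.inr (h2 ⟨hv, h⟩)]) k).trans
      (cnt_union_le W D k)
  rw [df, abs_le]; omega

theorem rep {c I X : Set V} (hI : Eqv F σ c I) (hX : Eqv F σ c X) (n : ℕ) :
    ∀ᶠ K in atTop, ∀ W, I ⊆ W → W ⊆ X →
      HH F σ c W n = ∑ k ∈ Finset.range K, ps (th σ n k) (df F c W k) := by
  obtain ⟨K₀, hK⟩ := eventually_atTop.1 (small (hX.1.union hI.2) n)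
  filter_upwards [eventually_ge_atTop K₀] with K hK' W h1 h2
  refine finsum_eq_sum_of_support_subset _ fun k hk => ?_
  by_contra hn
  have h3 := hK k (by simp at hn; omega)
  have h4 := df_le (F := F) (c := c) (W := W) (D := X \ c ∪ c \ I)
    (fun v hv => Or.inl ⟨h2 hv.1, hv.2⟩) (fun v hv => Or.inr ⟨hv.1, fun h => hv.2 (h1 h)⟩) k
  refine hk ?_
  rw [abs_le] at h4
  simp only [ps]; omega

theorem HH_add {c X Y : Set V} (hX : Eqv F σ c X) (hY : Eqv F σ c Y) (h : X ⊆ Y) (n k₀ : ℕ) :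
    HH F σ c X n + (ps (th σ n k₀) (df F c Y k₀) - ps (th σ n k₀) (df F c X k₀)) ≤ HH F σ c Y n := by
  obtain ⟨K, h1, h2⟩ := ((rep hX hY n).and (eventually_gt_atTop k₀)).exists
  rw [h1 X subset_rfl h, h1 Y h subset_rfl, ← le_sub_iff_add_le', ← Finset.sum_sub_distrib]
  refine Finset.single_le_sum (f := fun k => ps (th σ n k) (df F c Y k) - ps (th σ n k) (df F c X k))
    (fun k _ => ?_) (Finset.mem_range.2 h2)
  have := cnt_mono (F := F) h k
  simp only [ps, df]; omega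

theorem HH_mono {c X Y : Set V} (hX : Eqv F σ c X) (hY : Eqv F σ c Y) (h : X ⊆ Y) (n : ℕ) :
    HH F σ c X n ≤ HH F σ c Y n := by
  have := HH_add hX hY h n 0
  have := cnt_mono (F := F) h 0
  simp only [ps, df] at *; omega

theorem HH_insert (hF : Blocks F) {c X : Set V} (hX : Eqv F σ c X) {e : V} (he : e ∉ X) :
    (∀ n, HH F σ c (X ∪ {e}) n ≤ HH F σ c X n + 1) ∧
      ∀ᶠ n in atTop, HH F σ c (X ∪ {e}) n = HH F σ c X n + 1 := by
  obtain ⟨k₀, hk₀, hu⟩ := hF e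
  have key : ∀ n, HH F σ c (X ∪ {e}) n = HH F σ c X n +
      (ps (th σ n k₀) (df F c X k₀ + 1) - ps (th σ n k₀) (df F c X k₀)) := fun n => by
    obtain ⟨K, h1, h2⟩ := ((rep hX (hX.union (nul_single hF e)) n).and
      (eventually_gt_atTop k₀)).exists
    rw [h1 X subset_rfl subset_union_left, h1 _ subset_union_left subset_rfl,
      ← sub_eq_iff_eq_add', ← Finset.sum_sub_distrib, Finset.sum_eq_single_of_mem k₀
      (Finset.mem_range.2 h2)]
    · rw [df, cnt_union (disjoint_singleton_right.2 he), cnt_single, if_pos hk₀, df]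
      congr 2; push_cast; ring
    · intro k _ hk
      rw [df, cnt_union (disjoint_singleton_right.2 he), cnt_single, if_neg fun h => hk (hu k h), df,
        add_zero, sub_self]
  refine ⟨fun n => ?_, (eventually_ge_atTop k₀).mono fun n hn => ?_⟩
  · rw [key]; simp only [ps]; omega
  · rw [key, th, if_pos hn]; simp only [ps]; omega

theorem HH_compl (c X : Set V) (n : ℕ) : HH F σ cᶜ Xᶜ n = -HH F σ c X n := by
  rw [HH, HH, ← finsum_neg_distrib]
  refine finsum_congr fun k => ?_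
  have h1 := cnt_union (F := F) (disjoint_compl_right (a := c)) k
  have h2 := cnt_union (F := F) (disjoint_compl_right (a := X)) k
  rw [union_compl_self] at h1 h2
  simp only [ps, df]; omega

theorem mid_fin (hF : Blocks F) {c I : Set V} (hI : Eqv F σ c I)
    (hl : ∃ᶠ n in atTop, HH F σ c I n ≤ 0) (s : Finset V) :
    Eqv F σ c (I ∪ s) ∧ ((∀ᶠ n in atTop, 0 ≤ HH F σ c (I ∪ s) n) → ∃ B, I ⊆ B ∧ B ⊆ I ∪ s ∧
      (∃ᶠ n in atTop, HH F σ c B n ≤ 0) ∧ ∀ᶠ n in atTop, 0 ≤ HH F σ c B n) := by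
  induction s using Finset.induction_on with
  | empty =>
    rw [Finset.coe_empty, union_empty]
    exact ⟨hI, fun h => ⟨I, subset_rfl, subset_rfl, hl, h⟩⟩
  | insert a s _ ih =>
    have e : I ∪ ↑(insert a s) = I ∪ s ∪ {a} := by ext v; simp
    rw [e]
    refine ⟨ih.1.union (nul_single hF a), fun h => ?_⟩
    by_cases h' : ∀ᶠ n in atTop, 0 ≤ HH F σ c (I ∪ s) n
    · obtain ⟨B, h1, h2, h3⟩ := ih.2 h'
      exact ⟨B, h1, h2.trans subset_union_left, h3⟩
    · have ha : a ∉ I ∪ s := fun ha => h' (by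
        rwa [union_eq_self_of_subset_right (singleton_subset_iff.2 ha)] at h)
      refine ⟨_, subset_union_left.trans subset_union_left, subset_rfl, ?_, h⟩
      refine (not_eventually.1 h').mono fun n hn => ?_
      have := (HH_insert hF ih.1 ha).1 n
      omega

theorem chain_fin {C : Set (Set V)} (hC : IsChain (· ⊆ ·) C) (hne : C.Nonempty) (G : Finset V) :
    ∃ W ∈ C, ∀ v ∈ G, v ∈ W → v ∈ ⋂₀ C := by
  induction G using Finset.induction_on with
  | empty => obtain ⟨W, hW⟩ := hne; exact ⟨W, hW, by simp⟩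
  | insert a G _ ih =>
    obtain ⟨W, hW, h⟩ := ih
    by_cases ha : a ∈ ⋂₀ C
    · exact ⟨W, hW, fun v hv hv' => (Finset.mem_insert.1 hv).elim (fun e => e ▸ ha) (h v · hv')⟩
    · obtain ⟨W', hW', ha'⟩ : ∃ W' ∈ C, a ∉ W' := by simpa using ha
      rcases hC.total hW hW' with h1 | h1
      · exact ⟨W, hW, fun v hv hv' => (Finset.mem_insert.1 hv).elim
          (fun e => absurd (h1 (e ▸ hv')) ha') (h v · hv')⟩
      · exact ⟨W', hW', fun v hv hv' => (Finset.mem_insert.1 hv).elim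
          (fun e => absurd (e ▸ hv') ha') (h v · (h1 hv'))⟩

theorem mid (hF : Blocks F) {c I X : Set V} (hI : Eqv F σ c I) (hX : Eqv F σ c X) (hIX : I ⊆ X)
    (hl : ∃ᶠ n in atTop, HH F σ c I n ≤ 0) (hh : ∀ᶠ n in atTop, 0 ≤ HH F σ c X n) :
    ∃ B, I ⊆ B ∧ B ⊆ X ∧ (∃ᶠ n in atTop, HH F σ c B n ≤ 0) ∧ ∀ᶠ n in atTop, 0 ≤ HH F σ c B n := by
  obtain ⟨n₀, hn₀⟩ := eventually_atTop.1 hh
  obtain ⟨W, -, hW⟩ := zorn_superset_nonempty
    {W | I ⊆ W ∧ W ⊆ X ∧ ∀ n ≥ n₀, 0 ≤ HH F σ c W n} (fun C hC hch hne => by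
      obtain ⟨W₀, hW₀⟩ := id hne
      have h1 : I ⊆ ⋂₀ C := subset_sInter fun W hW => (hC hW).1
      have h2 : ⋂₀ C ⊆ X := (sInter_subset_of_mem hW₀).trans (hC hW₀).2.1
      refine ⟨⋂₀ C, ⟨h1, h2, fun n hn => ?_⟩, fun W hW => sInter_subset_of_mem hW⟩
      obtain ⟨K, hK⟩ := (rep hI hX n).exists
      obtain ⟨W, hW, h⟩ := chain_fin hch hne ((Finset.range K).biUnion F)
      have := (hC hW).2.2 n hn
      rw [hK W (hC hW).1 (hC hW).2.1] at this
      rw [hK _ h1 h2]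
      refine this.trans_eq (Finset.sum_congr rfl fun k hk => ?_)
      rw [df, df, cnt_congr fun v hv => ⟨h v (Finset.mem_biUnion.2 ⟨k, hk, hv⟩),
        fun hv' => sInter_subset_of_mem hW hv'⟩]) X ⟨hIX, subset_rfl, hn₀⟩
  obtain ⟨h1, h2, h3⟩ := hW.prop
  by_cases hlow : ∃ᶠ n in atTop, HH F σ c W n ≤ 0
  · exact ⟨W, h1, h2, hlow, eventually_atTop.2 ⟨n₀, h3⟩⟩
  obtain ⟨n₁, hn₁⟩ := eventually_atTop.1 (not_frequently.1 hlow)
  obtain ⟨K, hK⟩ := ((eventually_all_finset (Finset.range n₁)).2 fun n _ => rep hI hX n).exists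
  have hsub : W = I ∪ (((Finset.range K).biUnion F).filter (· ∈ W) : Finset V) := by
    refine Subset.antisymm (fun e he => ?_) (union_subset h1 fun v hv => (Finset.mem_filter.1 hv).2)
    by_contra hn
    have heI : e ∉ I := fun h => hn (Or.inl h)
    have heF : ∀ k ∈ Finset.range K, e ∉ F k := fun k hk h =>
      hn (Or.inr (Finset.mem_filter.2 ⟨Finset.mem_biUnion.2 ⟨k, hk, h⟩, he⟩))
    have i1 : I ⊆ W \ {e} := fun v hv => ⟨h1 hv, fun h => heI (h ▸ hv)⟩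
    have i2 : W \ {e} ⊆ X := sdiff_subset.trans h2
    refine (hW.le_of_le (y := W \ {e}) ⟨i1, i2, fun n hn => ?_⟩ sdiff_subset he).2 rfl
    by_cases hn' : n < n₁
    · have := h3 n hn
      rw [hK n (Finset.mem_range.2 hn') W h1 h2] at this
      rw [hK n (Finset.mem_range.2 hn') _ i1 i2]
      refine this.trans_eq (Finset.sum_congr rfl fun k hk => ?_)
      rw [df, df, cnt_congr (X := W) (Y := W \ {e}) fun v hv =>
        ⟨fun h => ⟨h, fun h' => heF k hk (h' ▸ hv)⟩, fun h => h.1⟩]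
    · have := (HH_insert hF (hI.between hX i1 i2) (e := e) fun h => h.2 rfl).1 n
      rw [sdiff_union_of_subset (singleton_subset_iff.2 he)] at this
      have := hn₁ n (by omega)
      omega
  obtain ⟨B, b1, b2, b3⟩ := (mid_fin hF hI hl _).2 (by
    rw [← hsub]; exact eventually_atTop.2 ⟨n₀, h3⟩)
  exact ⟨B, b1, by rw [← hsub] at b2; exact b2.trans h2, b3⟩

theorem bdry (hF : Blocks F) (hσ : Tendsto σ atTop atTop) {c I Z : Set V} (hI : Eqv F σ c I)
    (hZ : ¬ Nul F σ Z) (hd : Disjoint I Z) :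
    ∃ Y ⊆ Z, Nul F σ Y ∧ ∀ᶠ n in atTop, 0 ≤ HH F σ c (I ∪ Y) n := by
  obtain ⟨m, hm⟩ := not_forall.1 hZ
  have hP : ∀ n : ℕ, ∃ᶠ k in atTop, ¬ (m + 1) * cnt F Z k ≤ σ k ∧ n + 3 * (m + 1) < k ∧
      cnt F (I \ c ∪ c \ I) k ≤ th σ (n + 3 * (m + 1)) k ∧
      (n + 3 * (m + 1) + 1) * (HH F σ c I (n + 3 * (m + 1))).natAbs ≤ σ k := fun n =>
    (not_eventually.1 hm).and_eventually ((eventually_gt_atTop _).and
      ((small (hI.1.union hI.2) _).and (hσ.eventually_ge_atTop _)))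
  obtain ⟨φ, hφ, hP⟩ := extraction_forall_of_frequently hP
  have ht : ∀ n, (n + 3 * (m + 1) + 1) * th σ (n + 3 * (m + 1)) (φ n) ≤ σ (φ n) := fun n => by
    rw [th, if_neg (by have := (hP n).2.1; omega)]; exact Nat.mul_div_le _ _
  have : ∀ n, ∃ T ⊆ (F (φ n)).filter (· ∈ Z), T.card = 3 * th σ (n + 3 * (m + 1)) (φ n) := fun n =>
    Finset.exists_subset_card_eq (by
      have h1 := (hP n).1
      have h2 := ht n
      refine Nat.le_of_mul_le_mul_left (c := m + 1) ?_ (by omega)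
      rw [cnt] at h1
      nlinarith [Nat.zero_le (n * th σ (n + 3 * (m + 1)) (φ n))])
  choose T hT hc using this
  have hY : ∀ n, cnt F (⋃ i, (T i : Set V)) (φ n) = 3 * th σ (n + 3 * (m + 1)) (φ n) := fun n => by
    rw [← hc, cnt]
    congr 1
    ext v
    simp only [Finset.mem_filter, mem_iUnion, Finset.mem_coe]
    refine ⟨fun ⟨h1, i, h2⟩ => ?_, fun h => ⟨(Finset.mem_filter.1 (hT n h)).1, n, h⟩⟩
    rwa [hφ.injective ((hF v).unique h1 (Finset.mem_filter.1 (hT i h2)).1)]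
  have hYZ : (⋃ i, (T i : Set V)) ⊆ Z := iUnion_subset fun i v hv => (Finset.mem_filter.1 (hT i hv)).2
  have hN : Nul F σ (⋃ i, (T i : Set V)) := fun N => by
    filter_upwards [eventually_ge_atTop (φ (3 * N + 3))] with k hk
    by_cases h : ∃ n, φ n = k
    · obtain ⟨n, rfl⟩ := h
      have h1 := hφ.le_iff_le.1 hk
      have h2 := ht n
      rw [hY]
      nlinarith [Nat.zero_le (th σ (n + 3 * (m + 1)) (φ n)),
        Nat.zero_le (m * th σ (n + 3 * (m + 1)) (φ n))]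
    · have : cnt F (⋃ i, (T i : Set V)) k = 0 := by
        rw [cnt, Finset.card_eq_zero, Finset.filter_eq_empty_iff]
        intro v hv hv'
        obtain ⟨i, hi⟩ := mem_iUnion.1 hv'
        exact h ⟨i, (hF v).unique (Finset.mem_filter.1 (hT i hi)).1 hv⟩
      simp [this]
  refine ⟨_, hYZ, hN, eventually_atTop.2 ⟨3 * (m + 1), fun n' hn' => ?_⟩⟩
  obtain ⟨n, rfl⟩ : ∃ n, n' = n + 3 * (m + 1) := ⟨n' - 3 * (m + 1), by omega⟩
  have h1 := HH_add hI (hI.union hN) subset_union_left (n + 3 * (m + 1)) (φ n)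
  have h2 := df_le (F := F) (c := c) (W := I) subset_union_left subset_union_right (φ n)
  have h3 := cnt_union (F := F) (hd.mono_right hYZ) (φ n)
  obtain ⟨-, h4, h5, h6⟩ := hP n
  have h7 : (HH F σ c I (n + 3 * (m + 1))).natAbs ≤ th σ (n + 3 * (m + 1)) (φ n) := by
    rw [th, if_neg (by omega), Nat.le_div_iff_mul_le (by omega), mul_comm]; exact h6
  rw [hY] at h3
  rw [abs_le] at h2
  simp only [ps, df] at h1 h2
  omega

theorem bdry' (hF : Blocks F) (hσ : Tendsto σ atTop atTop) {c X Z : Set V} (hX : Eqv F σ c X)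
    (hZ : ¬ Nul F σ Z) (hd : Z ⊆ X) :
    ∃ Y ⊆ Z, Nul F σ Y ∧ ∃ᶠ n in atTop, HH F σ c (X \ Y) n ≤ 0 := by
  obtain ⟨Y, h1, h2, h3⟩ := bdry hF hσ hX.compl hZ (disjoint_compl_left.mono_right hd)
  refine ⟨Y, h1, h2, (h3.mono fun n hn => ?_).frequently⟩
  rw [show Xᶜ ∪ Y = (X \ Y)ᶜ by ext v; simp; tauto, HH_compl] at hn
  omega

/-- a uniform structure inside the class of `c` -/
structure Fine (J : Set V → Prop) (c : Set V) (𝓕 : Set (Set V)) : Prop where
  eqv : ∀ B ∈ 𝓕, J (B \ c) ∧ J (c \ B)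
  anti : ∀ B ∈ 𝓕, ∀ B' ∈ 𝓕, B ⊆ B' → B = B'
  swap : ∀ B ∈ 𝓕, ∀ e ∈ B, ∀ f ∉ B, insert f (B \ {e}) ∈ 𝓕
  mid : ∀ I X : Set V, I ⊆ X → J (I \ c) → J (c \ X) →
    ∃ B ∈ 𝓕, B ⊆ I ∨ X ⊆ B ∨ (I ⊆ B ∧ B ⊆ X)

theorem fine (hF : Blocks F) (hσ : Tendsto σ atTop atTop) {c : Set V} (hc : ¬ Nul F σ c)
    (hc' : ¬ Nul F σ cᶜ) : ∃ 𝓕, Fine (Nul F σ) c 𝓕 := by
  refine ⟨{B | Eqv F σ c B ∧ (∃ᶠ n in atTop, HH F σ c B n ≤ 0) ∧ ∀ᶠ n in atTop, 0 ≤ HH F σ c B n},
    fun B hB => hB.1, fun B hB B' hB' h => ?_, fun B hB e he f hf => ?_, fun I X hIX h1 h2 => ?_⟩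
  · by_contra hne
    obtain ⟨e, he, he'⟩ := exists_of_ssubset (h.ssubset_of_ne hne)
    obtain ⟨n, h1, h2, h3⟩ := (hB'.2.1.and_eventually (hB.2.2.and (HH_insert hF hB.1 he').2)).exists
    have := HH_mono (hB.1.union (nul_single hF e)) hB'.1
      (union_subset h (singleton_subset_iff.2 he)) n
    omega
  · have h0 := hB.1.sdiff (nul_single hF e)
    have h1 := (HH_insert hF h0 (e := e) fun h => h.2 rfl).2
    have h2 := (HH_insert hF h0 (e := f) fun h => hf h.1).2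
    rw [sdiff_union_of_subset (singleton_subset_iff.2 he)] at h1
    rw [← union_singleton]
    refine ⟨h0.union (nul_single hF f), (hB.2.1.and_eventually (h1.and h2)).mono fun n hn => ?_,
      (hB.2.2.and (h1.and h2)).mono fun n hn => ?_⟩ <;> omega
  · have hc0 : Eqv F σ c ((c ∪ I) ∩ X) :=
      ⟨h1.mono fun v hv => ⟨hv.1.1.resolve_left hv.2, hv.2⟩,
        h2.mono fun v hv => ⟨hv.1, fun h => hv.2 ⟨Or.inl hv.1, h⟩⟩⟩
    have hI0 : I ⊆ (c ∪ I) ∩ X := fun v hv => ⟨Or.inr hv, hIX hv⟩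
    obtain ⟨I₁, a1, a2, a3, a4⟩ : ∃ I₁, I ⊆ I₁ ∧ I₁ ⊆ (c ∪ I) ∩ X ∧ Eqv F σ c I₁ ∧
        (I₁ = I ∨ ∃ᶠ n in atTop, HH F σ c I₁ n ≤ 0) := by
      by_cases h : Nul F σ (((c ∪ I) ∩ X) \ I)
      · refine ⟨I, subset_rfl, hI0, ?_, Or.inl rfl⟩
        have := hc0.sdiff h
        rwa [sdiff_sdiff_cancel_left hI0] at this
      · obtain ⟨Y, y1, y2, y3⟩ := bdry' hF hσ hc0 h sdiff_subset
        exact ⟨((c ∪ I) ∩ X) \ Y, fun v hv => ⟨hI0 hv, fun h' => (y1 h').2 hv⟩, sdiff_subset,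
          hc0.sdiff y2, Or.inr y3⟩
    obtain ⟨X₁, b1, b2, b3, b4⟩ : ∃ X₁, X₁ ⊆ X ∧ (c ∪ I) ∩ X ⊆ X₁ ∧ Eqv F σ c X₁ ∧
        (X₁ = X ∨ ∀ᶠ n in atTop, 0 ≤ HH F σ c X₁ n) := by
      by_cases h : Nul F σ (X \ ((c ∪ I) ∩ X))
      · refine ⟨X, subset_rfl, inter_subset_right, ?_, Or.inl rfl⟩
        have := hc0.union h
        rwa [union_sdiff_cancel inter_subset_right] at this
      · obtain ⟨Y, y1, y2, y3⟩ := bdry hF hσ hc0 h disjoint_sdiff_right
        exact ⟨_, union_subset inter_subset_right (y1.trans sdiff_subset), subset_union_left,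
          hc0.union y2, Or.inr y3⟩
    by_cases hl : ∃ᶠ n in atTop, HH F σ c I₁ n ≤ 0
    · by_cases hh : ∀ᶠ n in atTop, 0 ≤ HH F σ c X₁ n
      · obtain ⟨B, c1, c2, c3⟩ := mid hF a3 b3 (a2.trans b2) hl hh
        exact ⟨B, ⟨a3.between b3 c1 c2, c3⟩, Or.inr (Or.inr ⟨a1.trans c1, c2.trans b1⟩)⟩
      · obtain rfl := b4.resolve_right hh
        obtain ⟨Y, -, y2, y3⟩ := bdry hF hσ b3 (Z := X₁ᶜ) (fun h => hc' ((h.union b3.1).mono
          fun v hv => by by_cases h : v ∈ X₁; exacts [Or.inr ⟨h, hv⟩, Or.inl h])) disjoint_compl_right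
        obtain ⟨B, c1, c2, c3⟩ := mid hF b3 (b3.union y2) subset_union_left
          ((not_eventually.1 hh).mono fun n hn => by omega) y3
        exact ⟨B, ⟨b3.between (b3.union y2) c1 c2, c3⟩, Or.inr (Or.inl c1)⟩
    · obtain rfl := a4.resolve_right hl
      obtain ⟨Y, -, y2, y3⟩ := bdry' hF hσ a3 (Z := I₁) (fun h => hc ((h.union a3.2).mono
        fun v hv => by by_cases h : v ∈ I₁; exacts [Or.inl h, Or.inr ⟨hv, h⟩])) subset_rfl
      obtain ⟨B, c1, c2, c3⟩ := mid hF (a3.sdiff y2) a3 sdiff_subset y3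
        ((not_frequently.1 hl).mono fun n hn => by omega)
      exact ⟨B, ⟨(a3.sdiff y2).between a3 c1 c2, c3⟩, Or.inl c2⟩

end Crest.Agent.R53
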