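import Crest.Agent.R53.Vert

/-!
Row 53 (S0074), part 6: two self-dual matroids without a covering.
-/

set_option autoImplicit false

namespace Crest.Agent.R53

open Set Filter
open scoped Classical

/-- blocks at a vertex -/
noncomputable def FV (k : ℕ) : Finset (Bool × Om) := Finset.univ ×ˢ FO k

theorem blocks_FV : Blocks FV := fun v => by
  simpa [FV] using blocks_FO v.2

theorem cnt_FV (Z : Set (Bool × Om)) (k : ℕ) :
    cnt FV Z k = cnt FO (pt true Z) k + cnt FO (pt false Z) k := by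
  simp only [cnt, FV, Finset.card_filter, Finset.sum_product, Fintype.sum_bool]
  rfl

theorem nul_FV (Z : Set (Bool × Om)) :
    Nul FV sO Z ↔ Nul FO sO (pt true Z) ∧ Nul FO sO (pt false Z) := by
  refine ⟨fun h => ⟨fun n => (h n).mono fun k hk => ?_, fun n => (h n).mono fun k hk => ?_⟩,
    fun h n => ((h.1 (2 * n + 1)).and (h.2 (2 * n + 1))).mono fun k hk => ?_⟩
  · rw [cnt_FV, mul_add] at hk; omega
  · rw [cnt_FV, mul_add] at hk; omega
  · rw [cnt_FV]; nlinarith [hk.1, hk.2]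

theorem exists_ctx : ∃ Sm, Ctx (Nul FO sO) Sm := by
  let f : Filter Om := Filter.comk (Nul FO sO) nul_empty (fun _ ht _ hs => ht.mono hs)
    (fun _ hs _ ht => hs.union ht)
  haveI : f.NeBot := ⟨fun e => not_nul_univ (by
    have : (∅ : Set Om) ∈ f := e ▸ mem_bot
    simpa [f] using this)⟩
  refine ⟨fun X => X ∉ Ultrafilter.of f, nul_empty, Nul.mono, Nul.union,
    fun hY h hX => hY (mem_of_superset hX h), fun hX hY h => ?_, fun {X} hX => ?_,
    fun h => h univ_mem, fun X => ?_, split⟩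
  · exact (Ultrafilter.union_mem_iff.1 h).elim hX hY
  · exact Ultrafilter.compl_mem_iff_notMem.1 (Ultrafilter.of_le f (by simpa [f] using hX))
  · by_cases h : X ∈ Ultrafilter.of f
    · exact Or.inr fun h' => Ultrafilter.compl_mem_iff_notMem.1 h' h
    · exact Or.inl h

theorem no_cover : ∃ M₀ M₁ : Matroid ℕ, M₀.E = univ ∧ M₁.E = univ ∧ M₀.dual = M₀ ∧ M₁.dual = M₁ ∧
    ∀ I₀ I₁ : Set ℕ, M₀.Indep I₀ → M₁.Indep I₁ → I₀ ∪ I₁ ≠ univ := by
  obtain ⟨Sm, h⟩ := exists_ctx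
  obtain ⟨A, hA⟩ := h.top
  obtain ⟨𝓑, hU, hK⟩ := vert h hA nul_FV fun c => fine blocks_FV tendsto_sO
  obtain ⟨g⟩ : Nonempty (ℤ × Om ≃ ℕ) := by
    haveI : Nonempty Om := ⟨⟨0, fun _ => true⟩⟩
    exact nonempty_equiv_of_countable
  let e : (ℤ × Bool ≃ ℤ) → (ℤ × (Bool × Om) ≃ ℕ) := fun π =>
    (Equiv.prodAssoc _ _ _).symm.trans ((π.prodCongr (Equiv.refl _)).trans g)
  have key : ∀ π : ℤ × Bool ≃ ℤ, ∃ M : Matroid ℕ, M.E = univ ∧ M.dual = M ∧ ∀ I, M.Indep I → ∀ j,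
      Key (Nul FO sO) Sm A (sl g I (π (j, true))) (sl g I (π (j, false))) := fun π => by
    obtain ⟨M, h1, h2, h3⟩ := part (e π) hU
    refine ⟨M, h1, h2, fun I hI j => ?_⟩
    obtain ⟨B, hB, hs⟩ := h3 I hI j
    exact (hK B hB).mono h (fun w hw => hs hw) fun w hw => hs hw
  obtain ⟨M₀, a1, a2, a3⟩ := key (Equiv.ofBijective bun bun_bij)
  obtain ⟨M₁, b1, b2, b3⟩ := key ((Equiv.ofBijective bun bun_bij).trans (Equiv.neg ℤ))
  refine ⟨M₀, M₁, a1, b1, a2, b2, fun I₀ I₁ h₀ h₁ hc => ?_⟩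
  have c : ∀ i, sl g I₀ i ∪ sl g I₁ i = univ := fun i =>
    eq_univ_of_forall fun w => (hc ▸ mem_univ (g (i, w)) : g (i, w) ∈ I₀ ∪ I₁)
  have k1 := ray h hA (sl g I₀) (sl g I₁) c (a3 I₀ h₀) (b3 I₁ h₁)
  have k2 := ray h hA (fun i => sl g I₁ (-i)) (fun i => sl g I₀ (-i))
    (fun i => by rw [union_comm]; exact c _) (b3 I₁ h₁) (by simpa using a3 I₀ h₀)
  rw [neg_zero] at k2
  exact h.nu (c 0 ▸ h.su k1 k2)

end Crest.Agent.R53
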