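import Mathlib

/-!
Row 53 (S0074), part 1: direct sums of identically self-dual uniform matroids.
-/

set_option autoImplicit false

namespace Crest.Agent.R53

open Set

/-- the bases of an identically self-dual uniform matroid -/
structure Unif {V : Type} (𝓑 : Set (Set V)) : Prop where
  anti : ∀ B ∈ 𝓑, ∀ B' ∈ 𝓑, B ⊆ B' → B = B'
  swap : ∀ B ∈ 𝓑, ∀ e ∈ B, ∀ f ∉ B, insert f (B \ {e}) ∈ 𝓑
  mid : ∀ I X : Set V, I ⊆ X → ∃ B ∈ 𝓑, B ⊆ I ∨ X ⊆ B ∨ (I ⊆ B ∧ B ⊆ X)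
  compl : ∀ B ∈ 𝓑, Bᶜ ∈ 𝓑

/-- a slice -/
def sl {κ V : Type} (e : κ × V ≃ ℕ) (X : Set ℕ) (k : κ) : Set V := {v | e (k, v) ∈ X}

/-- gluing slices -/
def gl {κ V : Type} (e : κ × V ≃ ℕ) (S : κ → Set V) : Set ℕ := {x | (e.symm x).2 ∈ S (e.symm x).1}

theorem sl_gl {κ V : Type} (e : κ × V ≃ ℕ) (S : κ → Set V) (k : κ) : sl e (gl e S) k = S k := by
  ext v; simp [sl, gl]

theorem sub_of_sl {κ V : Type} (e : κ × V ≃ ℕ) {X Y : Set ℕ} (h : ∀ k, sl e X k ⊆ sl e Y k) :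
    X ⊆ Y := by
  intro x hx
  obtain ⟨⟨k, v⟩, rfl⟩ := e.surjective x
  exact h k hx

theorem sl_mono {κ V : Type} (e : κ × V ≃ ℕ) {X Y : Set ℕ} (h : X ⊆ Y) (k : κ) :
    sl e X k ⊆ sl e Y k := fun _ hv => h hv

theorem part {κ V : Type} (e : κ × V ≃ ℕ) {𝓑 : Set (Set V)} (h : Unif 𝓑) :
    ∃ M : Matroid ℕ, M.E = univ ∧ M.dual = M ∧ ∀ I, M.Indep I → ∀ k, ∃ B ∈ 𝓑, sl e I k ⊆ B := by
  classical
  have hind : ∀ I : Set ℕ, (∃ B, (∀ k, sl e B k ∈ 𝓑) ∧ I ⊆ B) ↔ ∀ k, ∃ B ∈ 𝓑, sl e I k ⊆ B := by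
    refine fun I => ⟨fun ⟨B, hB, hI⟩ k => ⟨_, hB k, sl_mono e hI k⟩, fun hI => ?_⟩
    choose S hS hIS using hI
    exact ⟨gl e S, fun k => by rw [sl_gl]; exact hS k,
      sub_of_sl e fun k => by rw [sl_gl]; exact hIS k⟩
  let M : Matroid ℕ := Matroid.ofBase univ (fun X => ∀ k, sl e X k ∈ 𝓑)
    (by
      obtain ⟨B, hB, -⟩ := h.mid ∅ ∅ subset_rfl
      exact ⟨gl e fun _ => B, fun k => by rw [sl_gl]; exact hB⟩)
    (by
      intro X Y hX hY a ha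
      obtain ⟨⟨k, v⟩, rfl⟩ := e.surjective a
      have : ¬ sl e Y k ⊆ sl e X k := fun hs => ha.2 (by
        have := h.anti _ (hY k) _ (hX k) hs
        show v ∈ sl e Y k
        rw [this]; exact ha.1)
      obtain ⟨w, hw1, hw2⟩ := not_subset.1 this
      refine ⟨e (k, w), ⟨hw1, hw2⟩, fun k' => ?_⟩
      by_cases hk : k' = k
      · subst hk
        convert h.swap _ (hX k') v ha.1 w hw2 using 1
        ext u; simp [sl]
      · convert hX k' using 1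
        ext u; simp [sl, hk])
    (by
      intro X _ I hI hIX
      rw [hind] at hI
      have : ∀ k, ∃ S : Set V, sl e I k ⊆ S ∧ S ⊆ sl e X k ∧ (∃ B ∈ 𝓑, S ⊆ B) ∧
          ∀ T, S ⊆ T → T ⊆ sl e X k → (∃ B ∈ 𝓑, T ⊆ B) → T ⊆ S := by
        intro k
        obtain ⟨B₀, hB₀, h₀⟩ := hI k
        have key : ∀ B ∈ 𝓑, sl e I k ⊆ B → B ⊆ sl e X k → ∃ S : Set V, sl e I k ⊆ S ∧
            S ⊆ sl e X k ∧ (∃ B ∈ 𝓑, S ⊆ B) ∧
            ∀ T, S ⊆ T → T ⊆ sl e X k → (∃ B ∈ 𝓑, T ⊆ B) → T ⊆ S := fun B hB h1 h2 =>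
          ⟨B, h1, h2, ⟨B, hB, subset_rfl⟩, fun T hT _ ⟨B', hB', hT'⟩ => by
            rw [h.anti B hB B' hB' (hT.trans hT')]; exact hT'⟩
        obtain ⟨B, hB, h1 | h1 | h1⟩ := h.mid _ _ (sl_mono e hIX k)
        · exact key B hB (by rw [h.anti B hB B₀ hB₀ (h1.trans h₀)]; exact h₀)
            (h1.trans (sl_mono e hIX k))
        · exact ⟨_, sl_mono e hIX k, subset_rfl, ⟨B, hB, h1⟩, fun T _ hT _ => hT⟩
        · exact key B hB h1.1 h1.2
      choose S h1 h2 h3 h4 using this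
      refine ⟨gl e S, sub_of_sl e fun k => by rw [sl_gl]; exact h1 k, ⟨(hind _).2 fun k => by
        rw [sl_gl]; exact h3 k, sub_of_sl e fun k => by rw [sl_gl]; exact h2 k⟩, ?_⟩
      intro T hT hST
      refine sub_of_sl e fun k => ?_
      rw [sl_gl]
      exact h4 k _ (by rw [← sl_gl e S k]; exact sl_mono e hST k) (sl_mono e hT.2 k)
        ((hind _).1 hT.1 k))
    (fun _ _ => subset_univ _)
  have hE : M.E = univ := rfl
  have hB : ∀ X, M.IsBase X ↔ ∀ k, sl e X k ∈ 𝓑 := fun X => Iff.rfl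
  refine ⟨M, hE, Matroid.ext_isBase rfl fun B _ => ?_, fun I hI => (hind I).1 hI⟩
  rw [Matroid.dual_isBase_iff', hB, hB, hE, and_iff_left (subset_univ _), ← compl_eq_univ_diff]
  refine forall_congr' fun k => ⟨fun hk => ?_, fun hk => h.compl _ hk⟩
  have := h.compl _ hk
  rwa [show sl e Bᶜ k = (sl e B k)ᶜ from rfl, compl_compl] at this

theorem cover_of_pc {M : Matroid ℕ} (hE : M.E = univ) (hd : M.dual = M) {P C S I : Set ℕ}
    (hPC : P ∪ C = univ) (hS : (M.restrict P).closure S = P) (hSP : S ⊆ P)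
    (hI : (M.contract Cᶜ).Indep I) : M.Indep (S ∪ (C \ I))ᶜ := by
  have h1 : M.Coindep I := by rw [Matroid.coindep_def, hd]; exact hI.of_contract
  have hu : ∀ X : Set ℕ, X ⊆ M.E := fun X => hE ▸ subset_univ X
  have h2 := (Matroid.coindep_iff_compl_spanning (hu I)).1 h1
  have h3 : P ⊆ M.closure S := by
    rw [Matroid.restrict_closure_eq _ hSP (hu P)] at hS
    rw [← hS]; exact inter_subset_left
  have h4 : M.Spanning (S ∪ (C \ I)) := by
    rw [← Matroid.closure_spanning_iff (hu _)]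
    refine h2.superset (fun x hx => ?_) (hu _)
    rcases (hPC ▸ mem_univ x : x ∈ P ∪ C) with hp | hc
    · exact M.closure_subset_closure subset_union_left (h3 hp)
    · exact M.subset_closure _ (hu _) (Or.inr ⟨hc, hx.2⟩)
  rw [Matroid.spanning_iff_compl_coindep (hu _), Matroid.coindep_def, hd, hE,
    ← compl_eq_univ_diff] at h4
  exact h4

end Crest.Agent.R53
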