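import Crest.Agent.R53.Split

/-!
Row 53 (S0074), part 4: the top level, a recursion of length continuum.
-/

set_option autoImplicit false

namespace Crest.Agent.R53

open Set Cardinal

/-- an ideal `J` with simultaneous splitting inside a maximal ideal `Sm` -/
structure Ctx {Ω : Type} (J Sm : Set Ω → Prop) : Prop where
  je : J ∅
  jm : ∀ {X Y}, J Y → X ⊆ Y → J X
  ju : ∀ {X Y}, J X → J Y → J (X ∪ Y)
  sm : ∀ {X Y}, Sm Y → X ⊆ Y → Sm X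
  su : ∀ {X Y}, Sm X → Sm Y → Sm (X ∪ Y)
  js : ∀ {X}, J X → Sm X
  nu : ¬ Sm univ
  mx : ∀ X, Sm X ∨ Sm Xᶜ
  sp : Split J

variable {Ω : Type} {J Sm : Set Ω → Prop}

/-- the order on pairs -/
def Le (J : Set Ω → Prop) (a b : Set Ω × Set Ω) : Prop := J (b.1 \ a.1) ∧ J (a.2 \ b.2)

/-- a task -/
def Val (Sm : Set Ω → Prop) (l u : Set Ω × Set Ω) : Prop :=
  u.1 ⊆ l.1 ∧ l.2 ⊆ u.2 ∧ Sm u.1 ∧ Sm l.2

theorem Ctx.tr (h : Ctx J Sm) {X Y Z : Set Ω} (h1 : J (X \ Y)) (h2 : J (Y \ Z)) : J (X \ Z) :=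
  h.jm (h.ju h1 h2) fun v hv => by
    by_cases h' : v ∈ Y
    exacts [Or.inr ⟨h', hv.2⟩, Or.inl ⟨hv.1, h'⟩]

theorem Ctx.of_sub (h : Ctx J Sm) {X Y : Set Ω} (h1 : X ⊆ Y) : J (X \ Y) :=
  h.jm h.je fun _ hv => hv.2 (h1 hv.1)

theorem Ctx.sm_of (h : Ctx J Sm) {X Y : Set Ω} (h1 : J (X \ Y)) (h2 : Sm Y) : Sm X :=
  h.sm (h.su (h.js h1) h2) fun v hv => by
    by_cases h' : v ∈ Y
    exacts [Or.inr h', Or.inl ⟨hv, h'⟩]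

theorem Ctx.split4 (h : Ctx J Sm) {α : Type} {S : Set α} (hS : #S < 𝔠) (f g k : α → Set Ω)
    (Z₀ : Set Ω) : ∃ Y, Sm Y ∧ ∀ Z, (Z = Z₀ ∨ ∃ p ∈ S, Z = f p ∨ Z = g p ∨ Z = k p) →
      (J (Z ∩ Y) → J Z) ∧ (J (Z \ Y) → J Z) := by
  have a := fun f : α → Set Ω => (mk_image_le (f := f) (s := S)).trans_lt hS
  have u : ∀ {A B : Set (Set Ω)}, #A < 𝔠 → #B < 𝔠 → #(A ∪ B : Set (Set Ω)) < 𝔠 := fun hA hB =>
    (mk_union_le _ _).trans_lt (add_lt_of_lt aleph0_le_continuum hA hB)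
  obtain ⟨Y, hY⟩ := h.sp ({Z₀} ∪ (f '' S ∪ (g '' S ∪ k '' S))) (u
    ((finite_singleton _).lt_aleph0.trans aleph0_lt_continuum) (u (a f) (u (a g) (a k))))
  have key : ∀ Z, (Z = Z₀ ∨ ∃ p ∈ S, Z = f p ∨ Z = g p ∨ Z = k p) →
      (J (Z ∩ Y) → J Z) ∧ (J (Z \ Y) → J Z) := fun Z hZ => by
    have : Z ∈ {Z₀} ∪ (f '' S ∪ (g '' S ∪ k '' S)) := by
      rcases hZ with rfl | ⟨p, hp, rfl | rfl | rfl⟩
      exacts [Or.inl rfl, Or.inr (Or.inl ⟨p, hp, rfl⟩), Or.inr (Or.inr (Or.inl ⟨p, hp, rfl⟩)),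
        Or.inr (Or.inr (Or.inr ⟨p, hp, rfl⟩))]
    exact ⟨fun h' => by_contra fun hn => (hY Z this hn).1 h',
      fun h' => by_contra fun hn => (hY Z this hn).2 h'⟩
  rcases h.mx Y with hs | hs
  · exact ⟨Y, hs, key⟩
  · exact ⟨Yᶜ, hs, fun Z hZ => ⟨(key Z hZ).2, fun h' => (key Z hZ).1 (by rwa [sdiff_compl] at h')⟩⟩

theorem Ctx.middle (h : Ctx J Sm) {ι : Type} {S : Set ((Set Ω × Set Ω) × ι)} (hS : #S < 𝔠)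
    {l u : Set Ω × Set Ω} (hv : Val Sm l u) (h1 : ∀ p ∈ S, ¬ Le J p.1 l)
    (h2 : ∀ p ∈ S, ¬ Le J u p.1) :
    ∃ b : Set Ω × Set Ω, Sm b.1 ∧ Sm b.2 ∧ Le J l b ∧ Le J b u ∧
      (∀ p ∈ S, ¬ Le J p.1 b ∧ ¬ Le J b p.1 ∧ (J (b.1 \ p.1.2) → J (l.1 \ p.1.2)) ∧
        (J (p.1.1 \ b.2) → J (p.1.1 \ l.2))) ∧ (J (b.1 \ b.2) → J (l.1 \ l.2)) := by
  obtain ⟨Y', s', k'⟩ := h.split4 hS (fun p => p.1.2 \ l.2) (fun p => u.2 \ p.1.2)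
    (fun p => p.1.1 \ l.2) (l.1 \ l.2)
  obtain ⟨Y, s, k⟩ := h.split4 hS (fun p => l.1 \ p.1.1) (fun p => p.1.1 \ u.1)
    (fun p => l.1 \ p.1.2) (l.1 \ (l.2 ∪ u.2 ∩ Y'))
  have m1 : ∀ W : Set Ω, l.1 \ W ∩ Y ⊆ (u.1 ∪ l.1 ∩ Y) \ W := fun W v hv =>
    ⟨Or.inr ⟨hv.1.1, hv.2⟩, hv.1.2⟩
  have m2 : ∀ W : Set Ω, (W \ l.2) \ Y' ⊆ W \ (l.2 ∪ u.2 ∩ Y') := fun W v hv =>
    ⟨hv.1.1, fun h' => h'.elim hv.1.2 fun h' => hv.2 h'.2⟩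
  refine ⟨(u.1 ∪ l.1 ∩ Y, l.2 ∪ u.2 ∩ Y'), h.su hv.2.2.1 (h.sm s inter_subset_right),
    h.su hv.2.2.2 (h.sm s' inter_subset_right),
    ⟨h.of_sub (union_subset hv.1 inter_subset_left), h.of_sub subset_union_left⟩,
    ⟨h.of_sub subset_union_left, h.of_sub (union_subset hv.2.1 inter_subset_left)⟩,
    fun p hp => ⟨fun e => h1 p hp ⟨?_, ?_⟩, fun e => h2 p hp ⟨?_, ?_⟩, fun e => ?_, fun e => ?_⟩,
    fun e => ?_⟩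
  · exact (k _ (Or.inr ⟨p, hp, Or.inl rfl⟩)).1 (h.jm e.1 (m1 _))
  · exact (k' _ (Or.inr ⟨p, hp, Or.inl rfl⟩)).2 (h.jm e.2 (m2 _))
  · exact (k _ (Or.inr ⟨p, hp, Or.inr (Or.inl rfl)⟩)).2 (h.jm e.1 fun v hv =>
      ⟨hv.1.1, fun h' => h'.elim hv.1.2 fun h' => hv.2 h'.2⟩)
  · exact (k' _ (Or.inr ⟨p, hp, Or.inr (Or.inl rfl)⟩)).1 (h.jm e.2 fun v hv =>
      ⟨Or.inr ⟨hv.1.1, hv.2⟩, hv.1.2⟩)
  · exact (k _ (Or.inr ⟨p, hp, Or.inr (Or.inr rfl)⟩)).1 (h.jm e (m1 _))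
  · exact (k' _ (Or.inr ⟨p, hp, Or.inr (Or.inr rfl)⟩)).2 (h.jm e (m2 _))
  · exact (k' _ (Or.inl rfl)).2 (h.jm ((k _ (Or.inl rfl)).1 (h.jm e (m1 _))) (m2 _))

/-- the invariant -/
def Good {ι : Type} [LT ι] (J Sm : Set Ω → Prop) (S : Set ((Set Ω × Set Ω) × ι)) : Prop :=
  ∀ p ∈ S, ∀ q ∈ S, (Sm p.1.1 ∧ Sm p.1.2) ∧ (Le J p.1 q.1 → p = q) ∧
    (J (q.1.1 \ p.1.2) → q.2 < p.2)

/-- the task is done -/
def Done (J : Set Ω → Prop) (l u a : Set Ω × Set Ω) : Prop :=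
  Le J a l ∨ Le J u a ∨ (Le J l a ∧ Le J a u)

theorem Good.add {ι : Type} [LT ι] {S : Set ((Set Ω × Set Ω) × ι)} (hG : Good J Sm S)
    {b : Set Ω × Set Ω} {ρ : ι} (s1 : Sm b.1) (s2 : Sm b.2)
    (h1 : ∀ p ∈ S, ¬ Le J p.1 b ∧ ¬ Le J b p.1 ∧ (J (b.1 \ p.1.2) → ρ < p.2) ∧
      (J (p.1.1 \ b.2) → p.2 < ρ)) (h2 : ¬ J (b.1 \ b.2)) : Good J Sm (S ∪ {(b, ρ)}) := by
  rintro p (hp | rfl) q (hq | rfl)
  · exact hG p hp q hq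
  · exact ⟨(hG p hp p hp).1, fun e => absurd e (h1 p hp).1, (h1 p hp).2.2.1⟩
  · exact ⟨⟨s1, s2⟩, fun e => absurd e (h1 q hq).2.1, (h1 q hq).2.2.2⟩
  · exact ⟨⟨s1, s2⟩, fun _ => rfl, fun e => absurd e h2⟩

theorem Ctx.step (h : Ctx J Sm) {ι : Type} [LinearOrder ι] {S : Set ((Set Ω × Set Ω) × ι)}
    (hS : #S < 𝔠) (hG : Good J Sm S) {β : ι} (hβ : ∀ p ∈ S, p.2 < β) (l u : Set Ω × Set Ω) :
    ∃ N : Set ((Set Ω × Set Ω) × ι), N.Finite ∧ (∀ p ∈ N, p.2 ≤ β) ∧ Good J Sm (S ∪ N) ∧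
      (Val Sm l u → ∃ p ∈ S ∪ N, Done J l u p.1) := by
  by_cases hd : Val Sm l u → ∃ p ∈ S, Done J l u p.1
  · exact ⟨∅, finite_empty, by simp, by simpa using hG, by simpa using hd⟩
  obtain ⟨hv, hd⟩ := Classical.not_imp.1 hd
  have h1 : ∀ p ∈ S, ¬ Le J p.1 l := fun p hp e => hd ⟨p, hp, Or.inl e⟩
  have h2 : ∀ p ∈ S, ¬ Le J u p.1 := fun p hp e => hd ⟨p, hp, Or.inr (Or.inl e)⟩
  have big : ∀ l u : Set Ω × Set Ω, Val Sm l u → ¬ Sm l.1 → (∀ p ∈ S, ¬ Le J u p.1) →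
      ∃ b, Le J l b ∧ Le J b u ∧ Good J Sm (S ∪ {(b, β)}) := fun l u hv hl h2 => by
    obtain ⟨b, s1, s2, b1, b2, b3, b4⟩ := h.middle hS hv
      (fun p hp e => hl (h.sm_of e.1 (hG p hp p hp).1.1)) h2
    exact ⟨b, b1, b2, hG.add s1 s2 (fun p hp => ⟨(b3 p hp).1, (b3 p hp).2.1,
      fun e => absurd (h.sm_of ((b3 p hp).2.2.1 e) (hG p hp p hp).1.2) hl, fun _ => hβ p hp⟩)
      fun e => hl (h.sm_of (b4 e) hv.2.2.2)⟩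
  by_cases hp : ∃ p₀ ∈ S, Le J l p₀.1
  · obtain ⟨p₀, hp₀, e₀⟩ := hp
    obtain ⟨b, s1, s2, b1, b2, b3, b4⟩ := h.middle hS hv h1 h2
    refine ⟨{(b, p₀.2)}, finite_singleton _, by simpa using (hβ p₀ hp₀).le,
      hG.add s1 s2 (fun p hp => ⟨(b3 p hp).1, (b3 p hp).2.1,
        fun e => (hG p hp p₀ hp₀).2.2 (h.tr e₀.1 ((b3 p hp).2.2.1 e)),
        fun e => (hG p₀ hp₀ p hp).2.2 (h.tr ((b3 p hp).2.2.2 e) e₀.2)⟩)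
      fun e => lt_irrefl _ ((hG p₀ hp₀ p₀ hp₀).2.2 (h.tr e₀.1 (h.tr (b4 e) e₀.2))),
      fun _ => ⟨_, Or.inr rfl, Or.inr (Or.inr ⟨b1, b2⟩)⟩⟩
  by_cases hl : Sm l.1
  · obtain ⟨b, -, b2, b3⟩ := big (univ, l.2) l ⟨subset_univ _, subset_rfl, hl, hv.2.2.2⟩ h.nu
      fun p hp' e => hp ⟨p, hp', e⟩
    exact ⟨{(b, β)}, finite_singleton _, by simp, b3, fun _ => ⟨_, Or.inr rfl, Or.inl b2⟩⟩
  · obtain ⟨b, b1, b2, b3⟩ := big l u hv hl h2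
    exact ⟨{(b, β)}, finite_singleton _, by simp, b3,
      fun _ => ⟨_, Or.inr rfl, Or.inr (Or.inr ⟨b1, b2⟩)⟩⟩

theorem Ctx.recur (h : Ctx J Sm) {ι : Type} [LinearOrder ι] [WellFoundedLT ι]
    (hι : ∀ i : ι, #(Iio i) < 𝔠) (t : ι → (Set Ω × Set Ω) × (Set Ω × Set Ω)) :
    ∃ S : Set ((Set Ω × Set Ω) × ι), Good J Sm S ∧
      ∀ i, Val Sm (t i).1 (t i).2 → ∃ p ∈ S, Done J (t i).1 (t i).2 p.1 := by
  let spec : Set ((Set Ω × Set Ω) × ι) → ι → Set ((Set Ω × Set Ω) × ι) → Prop := fun S β N =>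
    N.Finite ∧ (∀ p ∈ N, p.2 ≤ β) ∧ Good J Sm (S ∪ N) ∧
      (Val Sm (t β).1 (t β).2 → ∃ p ∈ S ∪ N, Done J (t β).1 (t β).2 p.1)
  let N : ι → Set ((Set Ω × Set Ω) × ι) := WellFoundedLT.fix fun β f =>
    Classical.epsilon (spec (⋃ α, ⋃ h : α < β, f α h) β)
  have hN : ∀ β, N β = Classical.epsilon (spec (⋃ α ∈ Iio β, N α) β) := fun β =>
    WellFoundedLT.fix_eq _ β
  have good : ∀ A : Set ι, (∀ α ∈ A, spec (⋃ γ ∈ Iio α, N γ) α (N α)) →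
      Good J Sm (⋃ α ∈ A, N α) := fun A hA p hp q hq => by
    obtain ⟨α, hα, hp⟩ := mem_iUnion₂.1 hp
    obtain ⟨γ, hγ, hq⟩ := mem_iUnion₂.1 hq
    rcases lt_trichotomy α γ with e | rfl | e
    · exact (hA γ hγ).2.2.1 p (Or.inl (mem_biUnion e hp)) q (Or.inr hq)
    · exact (hA α hα).2.2.1 p (Or.inr hp) q (Or.inr hq)
    · exact (hA α hα).2.2.1 p (Or.inr hp) q (Or.inl (mem_biUnion e hq))
  have all : ∀ β, spec (⋃ α ∈ Iio β, N α) β (N β) := fun β => by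
    induction β using WellFoundedLT.induction with
    | ind β ih =>
      rw [hN]
      refine Classical.epsilon_spec (h.step ?_ (good _ ih) (fun p hp => ?_) _ _)
      · exact (mk_biUnion_le _ _).trans_lt (mul_lt_of_lt aleph0_le_continuum (hι β)
          ((ciSup_le' fun α : Iio β => (ih α.1 α.2).1.lt_aleph0.le).trans_lt aleph0_lt_continuum))
      · obtain ⟨α, hα, hp⟩ := mem_iUnion₂.1 hp
        exact ((ih α hα).2.1 p hp).trans_lt hα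
  refine ⟨⋃ α ∈ Set.univ, N α, good _ fun α _ => all α, fun i hi => ?_⟩
  obtain ⟨p, hp | hp, e⟩ := (all i).2.2.2 hi
  · obtain ⟨α, -, hp⟩ := mem_iUnion₂.1 hp
    exact ⟨p, mem_biUnion (mem_univ α) hp, e⟩
  · exact ⟨p, mem_biUnion (mem_univ i) hp, e⟩

/-- the top level structure -/
structure Top (J Sm : Set Ω → Prop) (A : Set (Set Ω × Set Ω)) : Prop where
  sm : ∀ a ∈ A, Sm a.1 ∧ Sm a.2
  anti : ∀ a ∈ A, ∀ b ∈ A, Le J a b → a = b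
  done : ∀ l u, Val Sm l u → ∃ a ∈ A, Done J l u a
  chain : ∀ a : ℕ → Set Ω × Set Ω, (∀ n, a n ∈ A) → ¬ ∀ n, J ((a (n + 1)).1 \ (a n).2)

theorem Ctx.top (h : Ctx J Sm) [Countable Ω] : ∃ A, Top J Sm A := by
  obtain ⟨i1, i2, e⟩ := exists_ord_eq_type_lt ((Set Ω × Set Ω) × (Set Ω × Set Ω))
  have h1 : #(Set Ω) ≤ 𝔠 := by
    rw [mk_set, ← two_power_aleph0]
    exact power_le_power_left two_ne_zero mk_le_aleph0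
  have h2 : #((Set Ω × Set Ω) × (Set Ω × Set Ω)) ≤ 𝔠 := by
    simp only [mk_prod, lift_id]
    have := mul_le_mul' h1 h1
    rw [continuum_mul_self] at this
    exact (mul_le_mul' this this).trans_eq continuum_mul_self
  obtain ⟨S, hG, hS⟩ := @Ctx.recur Ω J Sm h _ i1 i2
    (fun i => (@mk_Iio_lt _ i1 i2 i e).trans_le h2) id
  refine ⟨Prod.fst '' S, ?_, ?_, fun l u hv => ?_, fun a ha hc => ?_⟩
  · rintro _ ⟨p, hp, rfl⟩; exact (hG p hp p hp).1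
  · rintro _ ⟨p, hp, rfl⟩ _ ⟨q, hq, rfl⟩ e; rw [(hG p hp q hq).2.1 e]
  · obtain ⟨p, hp, e⟩ := hS (l, u) hv
    exact ⟨p.1, ⟨p, hp, rfl⟩, e⟩
  · choose p hp hpa using ha
    obtain ⟨_, ⟨n, rfl⟩, hn⟩ := i2.wf.has_min (range fun n => (p n).2) (range_nonempty _)
    exact hn _ ⟨n + 1, rfl⟩ ((hG _ (hp n) _ (hp (n + 1))).2.2 (by rw [hpa, hpa]; exact hc n))

end Crest.Agent.R53
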