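import Crest.Agent.R53.Fine

/-!
Row 53 (S0074), part 3: fewer than continuum many sets of positive density can be split at once.
-/

set_option autoImplicit false

namespace Crest.Agent.R53

open Set Filter Cardinal
open scoped Classical

/-- the ground set: a disjoint union of cubes -/
abbrev Om : Type := Σ k : ℕ, ((Fin k → Bool) → Bool)

/-- the blocks -/
noncomputable def FO (k : ℕ) : Finset Om := Finset.univ.map (Function.Embedding.sigmaMk k)

/-- the size of a block -/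
def sO (k : ℕ) : ℕ := Fintype.card ((Fin k → Bool) → Bool)

/-- half cubes -/
def half (ξ : ℕ → Bool) (b : Bool) : Set Om := {v | v.2 (fun i => ξ i) = b}

theorem blocks_FO : Blocks FO := fun v =>
  ⟨v.1, Finset.mem_map.2 ⟨v.2, Finset.mem_univ _, rfl⟩, fun k hk => by
    obtain ⟨g, -, rfl⟩ := Finset.mem_map.1 hk; rfl⟩

theorem cnt_FO (Z : Set Om) (k : ℕ) :
    cnt FO Z k = (Finset.univ.filter (fun g : (Fin k → Bool) → Bool => (⟨k, g⟩ : Om) ∈ Z)).card := by
  rw [cnt, FO, Finset.filter_map, Finset.card_map]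
  rfl

theorem lt_sO (k : ℕ) : k < sO k := by
  simp only [sO, Fintype.card_fun, Fintype.card_bool, Fintype.card_fin]
  exact Nat.lt_two_pow_self.trans Nat.lt_two_pow_self

theorem tendsto_sO : Tendsto sO atTop atTop :=
  tendsto_atTop_mono (fun k => (lt_sO k).le) tendsto_id

theorem not_nul_univ : ¬ Nul FO sO univ := fun h => by
  obtain ⟨k, hk⟩ := (h 1).exists
  have := lt_sO k
  have e : cnt FO univ k = sO k := by rw [cnt_FO, sO]; simp
  omega

theorem cube {α ι : Type} [Fintype α] (r : ι → α) (s : ι → Bool) (T : Finset ι) (h : InjOn r T) :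
    2 ^ T.card * (Finset.univ.filter (fun g : α → Bool => ∀ i ∈ T, g (r i) = s i)).card ≤
      Fintype.card (α → Bool) := by
  induction T using Finset.induction_on with
  | empty => simp
  | insert a T ha ih =>
    refine le_trans ?_ (ih (h.mono (by simp)))
    rw [Finset.card_insert_of_notMem ha, pow_succ, mul_assoc]
    refine Nat.mul_le_mul_left _ ?_
    rw [← Finset.card_filter_add_card_filter_not (s := Finset.univ.filter
      (fun g : α → Bool => ∀ i ∈ T, g (r i) = s i)) (fun g => g (r a) = s a), two_mul]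
    refine add_le_add (Finset.card_le_card fun g hg => by simp at hg ⊢; tauto) ?_
    refine Finset.card_le_card_of_injOn (fun g => Function.update g (r a) (!s a)) ?_ ?_
    · intro g hg
      simp only [Finset.coe_filter, Finset.mem_univ, true_and, mem_setOf_eq, Finset.mem_filter,
        Finset.forall_mem_insert] at hg ⊢
      refine ⟨fun i hi => ?_, by simp⟩
      rw [Function.update_of_ne, hg.2 i hi]
      intro e
      exact ha (h (by simp [hi]) (by simp) e ▸ hi)
    · intro g hg g' hg' e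
      simp only [Finset.coe_filter, Finset.mem_univ, true_and, mem_setOf_eq,
        Finset.forall_mem_insert] at hg hg'
      funext x
      by_cases hx : x = r a
      · rw [hx, hg.1, hg'.1]
      · simpa [Function.update_of_ne hx] using congrFun e x

theorem nul_biUnion {V ι : Type} {F : ℕ → Finset V} {σ : ℕ → ℕ} (T : Finset ι) (D : ι → Set V)
    (h : ∀ i ∈ T, Nul F σ (D i)) : Nul F σ (⋃ i ∈ T, D i) := by
  induction T using Finset.induction_on with
  | empty => simpa using nul_empty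
  | insert a T _ ih =>
    rw [Finset.set_biUnion_insert]
    exact (h a (by simp)).union (ih fun i hi => h i (by simp [hi]))

theorem exc_finite {Z : Set Om} (hZ : ¬ Nul FO sO Z) :
    {ξ | ∃ b, Nul FO sO (Z ∩ half ξ b)}.Finite := by
  by_contra hinf
  refine hZ fun n => ?_
  obtain ⟨T, hT, hc⟩ := Set.Infinite.exists_subset_card_eq hinf (2 * n + 2)
  choose! s hs using fun ξ (h : ξ ∈ T) => hT h
  have hinj : ∀ᶠ k in atTop, ∀ ξ ∈ T, ∀ ξ' ∈ T,
      (fun i : Fin k => ξ i) = (fun i : Fin k => ξ' i) → ξ = ξ' := by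
    refine (eventually_all_finset T).2 fun ξ _ => (eventually_all_finset T).2 fun ξ' _ => ?_
    by_cases h : ξ = ξ'
    · exact Eventually.of_forall fun _ _ => h
    · obtain ⟨i, hi⟩ := Function.ne_iff.1 h
      exact (eventually_gt_atTop i).mono fun k hk e => absurd (congrFun e ⟨i, hk⟩) hi
  filter_upwards [hinj, nul_biUnion T _ hs (2 * n + 1)] with k h1 h2
  have h3 := cube (fun (ξ : ℕ → Bool) (i : Fin k) => ξ i) (fun ξ => !s ξ) T
    fun ξ h ξ' h' e => h1 ξ h ξ' h' e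
  have h4 : cnt FO Z k ≤ cnt FO (⋃ ξ ∈ T, Z ∩ half ξ (s ξ)) k +
      cnt FO {v | ∀ ξ ∈ T, v ∈ half ξ (!s ξ)} k := by
    refine (cnt_mono (fun v hv => ?_) k).trans (cnt_union_le _ _ k)
    by_contra hn
    refine hn (Or.inr fun ξ h => ?_)
    have : v ∉ half ξ (s ξ) := fun h' => hn (Or.inl (mem_biUnion h ⟨hv, h'⟩))
    exact Bool.eq_not.2 this
  have h5 : 2 ^ T.card * cnt FO {v | ∀ ξ ∈ T, v ∈ half ξ (!s ξ)} k ≤ sO k := by
    rw [cnt_FO, sO]; convert h3 <;> rfl
  have h6 : 2 * n + 2 ≤ 2 ^ T.card := hc ▸ Nat.lt_two_pow_self.le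
  have h7 := Nat.mul_le_mul_right (cnt FO {v | ∀ ξ ∈ T, v ∈ half ξ (!s ξ)} k) h6
  nlinarith [Nat.mul_le_mul_left (n + 1) h4]

/-- simultaneous splitting -/
def Split {V : Type} (J : Set V → Prop) : Prop :=
  ∀ 𝒵 : Set (Set V), #𝒵 < 𝔠 → ∃ Y, ∀ Z ∈ 𝒵, ¬ J Z → ¬ J (Z ∩ Y) ∧ ¬ J (Z \ Y)

theorem split : Split (Nul FO sO) := by
  intro 𝒵 h
  have h1 : #(⋃ Z ∈ {Z ∈ 𝒵 | ¬ Nul FO sO Z}, {ξ | ∃ b, Nul FO sO (Z ∩ half ξ b)}) < 𝔠 :=
    (mk_biUnion_le _ _).trans_lt (mul_lt_of_lt aleph0_le_continuum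
      ((mk_le_mk_of_subset (sep_subset _ _)).trans_lt h)
      ((ciSup_le' fun Z => (exc_finite Z.2.2).lt_aleph0.le).trans_lt aleph0_lt_continuum))
  obtain ⟨ξ, hξ⟩ : ∃ ξ, ξ ∉ ⋃ Z ∈ {Z ∈ 𝒵 | ¬ Nul FO sO Z}, {ξ | ∃ b, Nul FO sO (Z ∩ half ξ b)} := by
    by_contra hn
    push Not at hn
    rw [eq_univ_of_forall hn] at h1
    simp at h1
  refine ⟨half ξ true, fun Z hZ hn => ⟨fun h' => hξ (mem_biUnion (t := fun Z =>
    {ξ | ∃ b, Nul FO sO (Z ∩ half ξ b)}) ⟨hZ, hn⟩ ⟨true, h'⟩), fun h' => hξ (mem_biUnion (t := fun Z =>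
    {ξ | ∃ b, Nul FO sO (Z ∩ half ξ b)}) ⟨hZ, hn⟩ ⟨false, h'.mono fun v hv => ⟨hv.1, ?_⟩⟩)⟩⟩
  simpa [half] using hv.2

end Crest.Agent.R53
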