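import Crest.Agent.R53.Rec
import Crest.Agent.R53.Part

/-!
Row 53 (S0074), part 5: the uniform matroid at a vertex.
-/

set_option autoImplicit false

namespace Crest.Agent.R53

open Set Filter
open scoped Classical

variable {Ω : Type} {J Sm : Set Ω → Prop}

/-- one of the two halves -/
def pt (b : Bool) (Z : Set (Bool × Ω)) : Set Ω := {w | (b, w) ∈ Z}

/-- the centre of a critical class -/
def cen (a : Set Ω × Set Ω) : Set (Bool × Ω) :=
  {v | (v.1 = true ∧ v.2 ∉ a.1) ∨ (v.1 = false ∧ v.2 ∈ a.2)}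

/-- what an independent set satisfies -/
def Key (J Sm : Set Ω → Prop) (A : Set (Set Ω × Set Ω)) (S T : Set Ω) : Prop :=
  ¬ Sm S → ∃ a ∈ A, J (a.1 ∩ S) ∧ J (T \ a.2)

theorem pt_mono (b : Bool) {X Y : Set (Bool × Ω)} (h : X ⊆ Y) : pt b X ⊆ pt b Y := fun _ hw => h hw

theorem Ctx.not_both (h : Ctx J Sm) {X Y : Set Ω} (h1 : Sm X) (h2 : Sm Y) (h3 : Xᶜ ⊆ Y) : False :=
  h.nu (h.sm (h.su h1 h2) fun v _ => by
    by_cases h' : v ∈ X
    exacts [Or.inl h', Or.inr (h3 h')])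

theorem vert (h : Ctx J Sm) {A : Set (Set Ω × Set Ω)} (hA : Top J Sm A)
    {JV : Set (Bool × Ω) → Prop} (hJ : ∀ Z, JV Z ↔ J (pt true Z) ∧ J (pt false Z))
    (hf : ∀ c, ¬ JV c → ¬ JV cᶜ → ∃ 𝓕, Fine JV c 𝓕) :
    ∃ 𝓑 : Set (Set (Bool × Ω)), Unif 𝓑 ∧ ∀ B ∈ 𝓑, Key J Sm A (pt true B) (pt false B) := by
  have e1 : ∀ (a : Set Ω × Set Ω) (I : Set (Bool × Ω)),
      JV (cen a \ I) ↔ Le J a ((pt true I)ᶜ, pt false I) := fun a I => by
    rw [hJ, Le]
    congr! 2 <;> ext w <;> simp [pt, cen, and_comm]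
  have e2 : ∀ (a : Set Ω × Set Ω) (I : Set (Bool × Ω)),
      JV (I \ cen a) ↔ Le J ((pt true I)ᶜ, pt false I) a := fun a I => by
    rw [hJ, Le]
    congr! 2 <;> ext w <;> simp [pt, cen, and_comm]
  have jm : ∀ {X Y}, JV Y → X ⊆ Y → JV X := fun hY hXY =>
    (hJ _).2 ⟨h.jm ((hJ _).1 hY).1 (pt_mono _ hXY), h.jm ((hJ _).1 hY).2 (pt_mono _ hXY)⟩
  have je : JV ∅ := (hJ _).2 ⟨h.je, h.je⟩
  have : ∀ a ∈ A, ∃ 𝓕, Fine JV (cen a) 𝓕 := fun a ha => hf _
    (fun e => h.not_both (hA.sm a ha).1 (h.js ((hJ _).1 e).1) fun w hw => Or.inl ⟨rfl, hw⟩)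
    (fun e => h.not_both (hA.sm a ha).2 (h.js ((hJ _).1 e).2) fun w hw => by simpa [pt, cen] using hw)
  choose! 𝓕 hF using this
  have s1 : ∀ a ∈ A, ∀ B ∈ 𝓕 a, Sm (pt true B)ᶜ := fun a ha B hB =>
    h.sm_of ((e1 a B).1 ((hF a ha).eqv B hB).2).1 (hA.sm a ha).1
  have s2 : ∀ a ∈ A, ∀ B ∈ 𝓕 a, Sm (pt false B) := fun a ha B hB =>
    h.sm_of ((e2 a B).1 ((hF a ha).eqv B hB).1).2 (hA.sm a ha).2
  have an : ∀ a ∈ A, ∀ b ∈ A, ∀ B ∈ 𝓕 a, ∀ B' ∈ 𝓕 b, B ⊆ B' → B = B' := fun a ha b hb B hB B' hB' e => by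
    have k1 := (e1 a B').1 (jm ((hF a ha).eqv B hB).2 (sdiff_subset_sdiff_right e))
    have k2 := (e2 b B').1 ((hF b hb).eqv B' hB').1
    obtain rfl := hA.anti a ha b hb ⟨h.tr k2.1 k1.1, h.tr k1.2 k2.2⟩
    exact (hF a ha).anti B hB B' hB' e
  have M : ∀ I X : Set (Bool × Ω), I ⊆ X → Sm (pt true X)ᶜ → Sm (pt false I) →
      ∃ a ∈ A, ∃ B ∈ 𝓕 a, B ⊆ I ∨ X ⊆ B ∨ (I ⊆ B ∧ B ⊆ X) := fun I X hIX k1 k2 => by
    obtain ⟨a, ha, k⟩ := hA.done ((pt true I)ᶜ, pt false I) ((pt true X)ᶜ, pt false X)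
      ⟨compl_subset_compl.2 (pt_mono _ hIX), pt_mono _ hIX, k1, k2⟩
    rw [Done, ← e1, ← e2, ← e1, ← e2] at k
    refine ⟨a, ha, ?_⟩
    by_cases c1 : JV (I \ cen a)
    · by_cases c2 : JV (cen a \ X)
      · exact (hF a ha).mid I X hIX c1 c2
      · have k : JV (X \ cen a) := by
          rcases k with k | k | k
          exacts [absurd (jm k (sdiff_subset_sdiff_right hIX)) c2, k, absurd k.2 c2]
        obtain ⟨B, hB, k | k | k⟩ := (hF a ha).mid X univ (subset_univ _) k (by simpa using je)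
        · exact absurd (jm ((hF a ha).eqv B hB).2 (sdiff_subset_sdiff_right k)) c2
        · exact ⟨B, hB, Or.inr (Or.inl ((subset_univ _).trans k))⟩
        · exact ⟨B, hB, Or.inr (Or.inl k.1)⟩
    · have k : JV (cen a \ I) := by
        rcases k with k | k | k
        exacts [k, absurd (jm k (sdiff_subset_sdiff_left hIX)) c1, absurd k.1 c1]
      obtain ⟨B, hB, k | k | k⟩ := (hF a ha).mid ∅ I (empty_subset _) (by simpa using je) k
      · exact ⟨B, hB, Or.inl (k.trans (empty_subset _))⟩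
      · exact absurd (jm ((hF a ha).eqv B hB).1 (sdiff_subset_sdiff_left k)) c1
      · exact ⟨B, hB, Or.inl k.2⟩
  have se : Sm ∅ := h.js h.je
  refine ⟨{B | ∃ a ∈ A, B ∈ 𝓕 a ∨ Bᶜ ∈ 𝓕 a}, ⟨?_, ?_, fun I X hIX => ?_, ?_⟩, ?_⟩
  · rintro B ⟨a, ha, hB | hB⟩ B' ⟨b, hb, hB' | hB'⟩ e
    · exact an a ha b hb B hB B' hB' e
    · exact (h.not_both (s1 a ha B hB) (s1 b hb _ hB') fun w hw hw' => hw' (e (not_not.1 hw))).elim
    · exact (h.not_both (s2 a ha _ hB) (s2 b hb _ hB') fun w hw => e (not_not.1 hw)).elim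
    · exact compl_injective (an b hb a ha _ hB' _ hB (compl_subset_compl.2 e)).symm
  · rintro B ⟨a, ha, hB | hB⟩ e he f hf
    · exact ⟨a, ha, Or.inl ((hF a ha).swap B hB e he f hf)⟩
    · refine ⟨a, ha, Or.inr ?_⟩
      convert (hF a ha).swap _ hB f hf e (not_not.2 he) using 1
      ext v
      by_cases h1 : v = e
      · subst h1; simpa using fun h' : v = f => hf (h' ▸ he)
      · simp [h1, and_comm]
  · by_cases c1 : Sm (pt true X)ᶜ ∧ Sm (pt false I)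
    · obtain ⟨a, ha, B, hB, k⟩ := M I X hIX c1.1 c1.2
      exact ⟨B, ⟨a, ha, Or.inl hB⟩, k⟩
    by_cases c2 : Sm (pt true I) ∧ Sm (pt false X)ᶜ
    · obtain ⟨a, ha, B, hB, k⟩ := M Xᶜ Iᶜ (compl_subset_compl.2 hIX)
        (h.sm c2.1 fun w hw => not_not.1 hw) c2.2
      refine ⟨Bᶜ, ⟨a, ha, Or.inr (by rwa [compl_compl])⟩, ?_⟩
      rcases k with k | k | k
      · exact Or.inr (Or.inl (subset_compl_comm.1 k))
      · exact Or.inl (compl_subset_comm.1 k)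
      · exact Or.inr (Or.inr ⟨subset_compl_comm.1 k.2, compl_subset_comm.1 k.1⟩)
    by_cases c3 : Sm (pt true X)ᶜ
    · have d1 : ¬ Sm (pt false I) := fun e => c1 ⟨c3, e⟩
      have d2 : Sm (pt true I)ᶜ := (h.mx _).resolve_left fun e => c2 ⟨e,
        h.sm ((h.mx _).resolve_left d1) (compl_subset_compl.2 (pt_mono _ hIX))⟩
      obtain ⟨a, ha, B, hB, k | k | k⟩ := M ∅ I (empty_subset _) d2 se
      · exact ⟨B, ⟨a, ha, Or.inl hB⟩, Or.inl (k.trans (empty_subset _))⟩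
      · exact absurd (h.sm (s2 a ha B hB) (pt_mono _ k)) d1
      · exact ⟨B, ⟨a, ha, Or.inl hB⟩, Or.inl k.2⟩
    · have d1 := (h.mx _).resolve_right c3
      have d2 : Sm (pt false X) := (h.mx _).resolve_right fun e => c2 ⟨h.sm d1 (pt_mono _ hIX), e⟩
      obtain ⟨a, ha, B, hB, k | k | k⟩ := M X univ (subset_univ _)
        (h.sm se fun w hw => hw (mem_univ _)) d2
      · exact absurd (h.sm (s1 a ha B hB) (compl_subset_compl.2 (pt_mono _ k))) c3
      · exact ⟨B, ⟨a, ha, Or.inl hB⟩, Or.inr (Or.inl ((subset_univ _).trans k))⟩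
      · exact ⟨B, ⟨a, ha, Or.inl hB⟩, Or.inr (Or.inl k.1)⟩
  · rintro B ⟨a, ha, hB⟩
    exact ⟨a, ha, by rwa [compl_compl, or_comm]⟩
  · rintro B ⟨a, ha, hB | hB⟩ hs
    · have := (e2 a B).1 ((hF a ha).eqv B hB).1
      exact ⟨a, ha, h.jm this.1 fun w hw => ⟨hw.1, not_not.2 hw.2⟩, this.2⟩
    · exact absurd (h.sm (s1 a ha _ hB) fun w hw hw' => hw' hw) hs

theorem Key.mono (h : Ctx J Sm) {A : Set (Set Ω × Set Ω)} {S T S' T' : Set Ω} (k : Key J Sm A S T)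
    (h1 : S' ⊆ S) (h2 : T' ⊆ T) : Key J Sm A S' T' := fun hs => by
  obtain ⟨a, ha, k1, k2⟩ := k fun e => hs (h.sm e h1)
  exact ⟨a, ha, h.jm k1 (inter_subset_inter_right _ h1), h.jm k2 (sdiff_subset_sdiff_left h2)⟩

theorem chain (h : Ctx J Sm) {A : Set (Set Ω × Set Ω)} (hA : Top J Sm A) (S T : ℕ → Set Ω)
    (hc : ∀ n, (T n)ᶜ ⊆ S (n + 1)) (hk : ∀ n, Key J Sm A (S n) (T n)) : Sm (S 0) := by
  by_contra h0
  have h1 : ∀ n, ¬ Sm (S n) := fun n => by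
    induction n with
    | zero => exact h0
    | succ n ih =>
      obtain ⟨a, ha, -, k⟩ := hk n ih
      exact fun e => h.not_both (h.sm_of k (hA.sm a ha).2) e (hc n)
  choose a ha k1 k2 using fun n => hk n (h1 n)
  refine hA.chain a ha fun n => h.jm (h.ju (k1 (n + 1)) (k2 n)) fun w hw => ?_
  by_cases h' : w ∈ T n
  exacts [Or.inr ⟨h', hw.2⟩, Or.inl ⟨hw.1, hc n h'⟩]

/-- the two bundles at a vertex -/
def bun (x : ℤ × Bool) : ℤ := if (0 ≤ x.1 ↔ x.2 = true) then 2 * x.1 else 2 * x.1 + 1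

theorem bun_bij : Function.Bijective bun := by
  constructor
  · rintro ⟨j, b⟩ ⟨j', b'⟩ e
    simp only [bun] at e
    cases b <;> cases b' <;> simp at e ⊢ <;> split_ifs at e <;> omega
  · intro i
    refine ⟨(i / 2, decide (0 ≤ i ↔ i % 2 = 0)), ?_⟩
    simp only [bun, decide_eq_true_eq]
    split_ifs <;> omega

theorem ray (h : Ctx J Sm) {A : Set (Set Ω × Set Ω)} (hA : Top J Sm A) (D E : ℤ → Set Ω)
    (hc : ∀ i, D i ∪ E i = univ) (hD : ∀ j, Key J Sm A (D (bun (j, true))) (D (bun (j, false))))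
    (hE : ∀ j, Key J Sm A (E (-bun (j, true))) (E (-bun (j, false)))) : Sm (D 0) := by
  have := chain h hA (fun n => if n % 2 = 0 then D n else E n)
    (fun n => if n % 2 = 0 then D (n + 1) else E (n + 1)) (fun n w hw => ?_) fun n => ?_
  · simpa using this
  · have := hc (n + 1) ▸ mem_univ w
    by_cases hn : n % 2 = 0
    · simp only [if_pos hn, if_neg (show ¬ (n + 1) % 2 = 0 by omega)] at hw ⊢
      exact this.resolve_left hw
    · simp only [if_neg hn, if_pos (show (n + 1) % 2 = 0 by omega)] at hw ⊢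
      exact this.resolve_right hw
  · by_cases hn : n % 2 = 0
    · simp only [if_pos hn]
      convert hD (n / 2) using 2 <;> simp only [bun] <;> split_ifs <;> simp at * <;> omega
    · simp only [if_neg hn]
      convert hE (-(n + 1) / 2) using 2 <;> simp only [bun] <;> split_ifs <;> simp at * <;> omega

end Crest.Agent.R53
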